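import Vale.Agent.P209.Sharp

/-!
Conjecture A of Siegel and Yao, sufficiency: few balls of any size and any number of small balls.
-/

namespace Vale.Agent.Results.P209.AsymptoticSharp

open Vale.Agent.P209

theorem result :
    ∀ (n k : ℕ), 1 ≤ n → ∀ (R : ℝ), 0 < R → ∀ r : Fin k → ℝ, (∀ i, 0 < r i) →
      (∑ i, r i ^ n < R ^ n) → (∀ i j, i < j → r i + r j < R) →
      (k ≤ 2 ^ n ∨
        ∃ (i : Fin k) (p : ℕ), (p:ℝ) * R ≤ (p+1) * r i ∧ k + p ^ n ≤ (p+1) ^ n + 1) →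
      ∀ δ : ℝ, 0 < δ → ∃ ε, 0 < ε ∧ ∀ (l : ℕ) (s : Fin l → ℝ), (∀ i, 0 < s i ∧ s i ≤ ε) →
        ∑ i, s i ^ n ≤ (1 - δ) * (R ^ n - ∑ i, r i ^ n) →
        HasBallPacking n (k + l) R (Fin.append r s) :=
  fun _ _ hn _ hR _ hr hvol hpair hk _ hδ =>
    hasBallPacking_add_small hn hR hr hvol (placeable_two_pow_or_big hn hR hr hvol hpair hk) hδ

end Vale.Agent.Results.P209.AsymptoticSharp
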