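import Vale.Agent.P209.Uniform

/-!
Conjecture A of Siegel and Yao, sufficiency up to a dimensional constant, for any number of balls.
-/

namespace Vale.Agent.Results.P209.UniformVolume

open Vale.Agent.P209

theorem result :
    ∀ (n k : ℕ), 2 ≤ n → ∀ (R : ℝ), 0 < R → ∀ r : Fin k → ℝ, (∀ i, 0 < r i) →
      (∀ i j, i < j → r i + r j < R) → ∀ i₀ : Fin k,
      r i₀ ^ n + (3:ℝ) ^ n * ∑ j ∈ Finset.univ.erase i₀, r j ^ n < R ^ n →
      HasBallPacking n k R r :=
  fun _ _ hn _ hR _ hr hpair i₀ hvol => hasBallPacking_three_pow hn hR hr hpair i₀ hvol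

end Vale.Agent.Results.P209.UniformVolume
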